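import Mathlib
import Vale.Agent.Lib.P090.Defs

/-!
P090 pool job 404 (P090-D), second backup copy by helper39: the bounded linear map between
Lipschitz-free spaces induced by a Lipschitz map, its norm bound and the retract identity.
-/

namespace Vale.Agent.Lib.P090.H39

open Vale.Agent.Lib.P090
open scoped NNReal ENNReal

universe u

variable {M N : Type u} [MetricSpace M] [MetricSpace N]

theorem comp_lip (φ : M → N) (K : ℝ≥0) (hφ : LipschitzWith K φ) (o : M) {o' : N}
    (f : Lip0 N o') (x y : M) :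
    |(f.fn (φ x) - f.fn (φ o)) - (f.fn (φ y) - f.fn (φ o))| ≤ (K * ‖f‖) * dist x y := by
  have h1 := lip0_abs_sub_le f (φ x) (φ y)
  have h2 := hφ.dist_le_mul x y
  have h3 : (f.fn (φ x) - f.fn (φ o)) - (f.fn (φ y) - f.fn (φ o))
      = f.fn (φ x) - f.fn (φ y) := by ring
  rw [h3]
  calc |f.fn (φ x) - f.fn (φ y)| ≤ ‖f‖ * dist (φ x) (φ y) := h1
    _ ≤ ‖f‖ * (K * dist x y) := mul_le_mul_of_nonneg_left h2 (norm_nonneg f)
    _ = (K * ‖f‖) * dist x y := by ring

/-- Composition with `φ`, recentred at the base point: a function on `N` vanishing at `o'` goes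
to a function on `M` vanishing at `o`. -/
noncomputable def comp0Fun (φ : M → N) (K : ℝ≥0) (hφ : LipschitzWith K φ) (o : M) (o' : N)
    (f : Lip0 N o') : Lip0 M o :=
  Lip0.mk (fun x => f.fn (φ x) - f.fn (φ o)) (sub_self _) (K * ‖f‖₊)
    (LipschitzWith.of_dist_le_mul fun x y => by
      rw [Real.dist_eq, NNReal.coe_mul, coe_nnnorm]
      exact comp_lip φ K hφ o f x y)

theorem comp0Fun_fn (φ : M → N) (K : ℝ≥0) (hφ : LipschitzWith K φ) (o : M) (o' : N)
    (f : Lip0 N o') (x : M) :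
    (comp0Fun φ K hφ o o' f).fn x = f.fn (φ x) - f.fn (φ o) := rfl

/-- `comp0Fun` as a bounded linear map of norm at most `K`. -/
noncomputable def comp0 (φ : M → N) (K : ℝ≥0) (hφ : LipschitzWith K φ) (o : M) (o' : N) :
    Lip0 N o' →L[ℝ] Lip0 M o :=
  LinearMap.mkContinuous
    { toFun := comp0Fun φ K hφ o o'
      map_add' := fun f g => Lip0.ext fun x => by
        rw [Lip0.fn_add, comp0Fun_fn, comp0Fun_fn, comp0Fun_fn, Lip0.fn_add, Lip0.fn_add]
        ring
      map_smul' := fun c f => Lip0.ext fun x => by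
        rw [RingHom.id_apply, Lip0.fn_smul, comp0Fun_fn, comp0Fun_fn, Lip0.fn_smul,
          Lip0.fn_smul]
        ring }
    K (fun f => lip0_norm_le _ (K * ‖f‖) (mul_nonneg K.2 (norm_nonneg f))
      (fun x y => comp_lip φ K hφ o f x y))

theorem comp0_fn (φ : M → N) (K : ℝ≥0) (hφ : LipschitzWith K φ) (o : M) (o' : N)
    (f : Lip0 N o') (x : M) :
    (comp0 φ K hφ o o' f).fn x = f.fn (φ x) - f.fn (φ o) := rfl

theorem norm_comp0_le (φ : M → N) (K : ℝ≥0) (hφ : LipschitzWith K φ) (o : M) (o' : N) :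
    ‖comp0 φ K hφ o o'‖ ≤ K :=
  LinearMap.mkContinuous_norm_le _ K.2 _

/-- The adjoint of `comp0` on the duals. -/
noncomputable def adj (φ : M → N) (K : ℝ≥0) (hφ : LipschitzWith K φ) (o : M) (o' : N) :
    (Lip0 M o →L[ℝ] ℝ) →L[ℝ] (Lip0 N o' →L[ℝ] ℝ) :=
  (ContinuousLinearMap.compL ℝ (Lip0 N o') (Lip0 M o) ℝ).flip (comp0 φ K hφ o o')

theorem adj_apply (φ : M → N) (K : ℝ≥0) (hφ : LipschitzWith K φ) (o : M) (o' : N)
    (g : Lip0 M o →L[ℝ] ℝ) (f : Lip0 N o') :
    adj φ K hφ o o' g f = g (comp0 φ K hφ o o' f) := rfl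

theorem adj_eq_comp (φ : M → N) (K : ℝ≥0) (hφ : LipschitzWith K φ) (o : M) (o' : N)
    (g : Lip0 M o →L[ℝ] ℝ) :
    adj φ K hφ o o' g = g.comp (comp0 φ K hφ o o') := rfl

theorem adj_delta (φ : M → N) (K : ℝ≥0) (hφ : LipschitzWith K φ) (o : M) (o' : N) (x : M) :
    adj φ K hφ o o' (delta M o x) = delta N o' (φ x) - delta N o' (φ o) := by
  apply ContinuousLinearMap.ext
  intro f
  rw [adj_apply, sub_apply, delta_apply, delta_apply, delta_apply, comp0_fn]

theorem adj_mem (φ : M → N) (K : ℝ≥0) (hφ : LipschitzWith K φ) (o : M) (o' : N)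
    (y : Lip0 M o →L[ℝ] ℝ) (hy : y ∈ free M o) : adj φ K hφ o o' y ∈ free N o' := by
  have hmaps : Set.MapsTo (adj φ K hφ o o')
      (Submodule.span ℝ (Set.range (delta M o)) : Set (Lip0 M o →L[ℝ] ℝ))
      (Submodule.span ℝ (Set.range (delta N o')) : Set (Lip0 N o' →L[ℝ] ℝ)) := by
    intro g hg
    refine Submodule.span_induction
      (p := fun g _ => adj φ K hφ o o' g ∈ Submodule.span ℝ (Set.range (delta N o')))
      ?_ ?_ ?_ ?_ hg
    · rintro _ ⟨x, rfl⟩
      rw [adj_delta]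
      exact Submodule.sub_mem _ (Submodule.subset_span ⟨φ x, rfl⟩)
        (Submodule.subset_span ⟨φ o, rfl⟩)
    · rw [map_zero]
      exact Submodule.zero_mem _
    · intro a b _ _ ha hb
      rw [map_add]
      exact Submodule.add_mem _ ha hb
    · intro c a _ ha
      rw [map_smul]
      exact Submodule.smul_mem _ c ha
  have hy' : y ∈ closure (Submodule.span ℝ (Set.range (delta M o)) : Set (Lip0 M o →L[ℝ] ℝ)) :=
    hy
  exact map_mem_closure (adj φ K hφ o o').continuous hy' hmaps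

/-- The bounded linear map between the Lipschitz-free spaces induced by a Lipschitz map. -/
noncomputable def freeMap (φ : M → N) (K : ℝ≥0) (hφ : LipschitzWith K φ) (o : M) (o' : N) :
    free M o →L[ℝ] free N o' :=
  ((adj φ K hφ o o').comp (free M o).subtypeL).codRestrict (free N o')
    (fun y => adj_mem φ K hφ o o' y.1 y.2)

theorem freeMap_coe (φ : M → N) (K : ℝ≥0) (hφ : LipschitzWith K φ) (o : M) (o' : N)
    (y : free M o) :
    ((freeMap φ K hφ o o' y : free N o') : Lip0 N o' →L[ℝ] ℝ)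
      = (y : Lip0 M o →L[ℝ] ℝ).comp (comp0 φ K hφ o o') := rfl

/- The operator norm on `free M o →L[ℝ] free N o'` is found by instance search only with a larger
nesting depth for pending instance problems (the space is a continuous linear map space between
subspaces of continuous linear map spaces). -/
set_option maxSynthPendingDepth 3 in
theorem norm_freeMap_le (φ : M → N) (K : ℝ≥0) (hφ : LipschitzWith K φ) (o : M) (o' : N) :
    ‖freeMap φ K hφ o o'‖ ≤ K := by
  refine ContinuousLinearMap.opNorm_le_bound _ K.2 (fun y => ?_)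
  have h1 : ‖freeMap φ K hφ o o' y‖
      = ‖(y : Lip0 M o →L[ℝ] ℝ).comp (comp0 φ K hφ o o')‖ := rfl
  rw [h1]
  calc ‖(y : Lip0 M o →L[ℝ] ℝ).comp (comp0 φ K hφ o o')‖
      ≤ ‖(y : Lip0 M o →L[ℝ] ℝ)‖ * ‖comp0 φ K hφ o o'‖ :=
        ContinuousLinearMap.opNorm_comp_le _ _
    _ ≤ ‖(y : Lip0 M o →L[ℝ] ℝ)‖ * K :=
        mul_le_mul_of_nonneg_left (norm_comp0_le φ K hφ o o') (norm_nonneg _)
    _ = K * ‖y‖ := by
        rw [mul_comm]
        rfl

theorem freeMap_retract (ι : N → M) (ρ : M → N) (A B : ℝ≥0) (hι : LipschitzWith A ι)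
    (hρ : LipschitzWith B ρ) (hρι : ∀ x, ρ (ι x) = x) (o : M) (o' : N) (y : free N o') :
    freeMap ρ B hρ o o' (freeMap ι A hι o' o y) = y := by
  apply Subtype.ext
  apply ContinuousLinearMap.ext
  intro f
  show (y : Lip0 N o' →L[ℝ] ℝ) (comp0 ι A hι o' o (comp0 ρ B hρ o o' f))
    = (y : Lip0 N o' →L[ℝ] ℝ) f
  congr 1
  apply Lip0.ext
  intro x
  rw [comp0_fn, comp0_fn, comp0_fn, hρι, hρι, Lip0.fn_base]
  ring

end Vale.Agent.Lib.P090.H39
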